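import Mathlib.LinearAlgebra.Dimension.Constructions
import Mathlib.LinearAlgebra.FiniteDimensional.Lemmas
import Mathlib.LinearAlgebra.FiniteDimensional.Basic
import Mathlib.Algebra.Order.BigOperators.Ring.Finset
import Mathlib.Data.Rat.Cast.Order

/-! Rank inequality (Euler inequality) for a connected graph with an injective family of
divergence free flows. -/

namespace Vale.Agent.P039.Bn.L2

variable {V E I : Type*}

/-- the coboundary of a potential -/
def grad (s t : E → V) : (V → ℚ) →ₗ[ℚ] (E → ℚ) where
  toFun y e := y (t e) - y (s e)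
  map_add' y z := by funext e; simp only [Pi.add_apply]; ring
  map_smul' a y := by funext e; simp only [Pi.smul_apply, smul_eq_mul, RingHom.id_apply]; ring

theorem grad_apply (s t : E → V) (y : V → ℚ) (e : E) : grad s t y e = y (t e) - y (s e) := rfl

theorem sum_grad_mul [Fintype V] [Fintype E] [DecidableEq V] (s t : E → V) (x : E → ℚ)
    (hx : ∀ v, (∑ e, if t e = v then x e else 0) = ∑ e, if s e = v then x e else 0)
    (y : V → ℚ) : ∑ e, grad s t y e * x e = 0 := by
  have h1 : ∑ e, y (t e) * x e = ∑ v, y v * ∑ e, if t e = v then x e else 0 := by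
    simp only [Finset.mul_sum]
    rw [Finset.sum_comm]
    refine Finset.sum_congr rfl fun e _ => ?_
    simp
  have h2 : ∑ e, y (s e) * x e = ∑ v, y v * ∑ e, if s e = v then x e else 0 := by
    simp only [Finset.mul_sum]
    rw [Finset.sum_comm]
    refine Finset.sum_congr rfl fun e _ => ?_
    simp
  simp only [grad_apply, sub_mul, Finset.sum_sub_distrib]
  rw [h1, h2]
  simp only [hx, sub_self]

/-- A connected graph (in function form) on `V` with edges `E`, and an injective linear map `D`
from the functions on `I` to the divergence free flows: `|I| + |V| ≤ |E| + 1`. -/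
theorem card_add_card_le [Fintype V] [Fintype E] [Fintype I] [DecidableEq V] (s t : E → V)
    (conn : ∀ y : V → ℚ, (∀ e, y (s e) = y (t e)) → ∀ v v', y v = y v')
    (D : (I → ℚ) →ₗ[ℚ] (E → ℚ)) (hD : Function.Injective D)
    (hdiv : ∀ n v, (∑ e, if t e = v then D n e else 0) = ∑ e, if s e = v then D n e else 0) :
    Fintype.card I + Fintype.card V ≤ Fintype.card E + 1 := by
  have hk : Module.finrank ℚ (LinearMap.ker (grad s t)) ≤ 1 := by
    have : LinearMap.ker (grad s t) ≤ Submodule.span ℚ {(fun _ => 1 : V → ℚ)} := by
      intro z hz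
      rw [LinearMap.mem_ker] at hz
      have hc := conn z fun e => by
        have := congrFun hz e
        rw [grad_apply, Pi.zero_apply] at this
        linarith
      rw [Submodule.mem_span_singleton]
      by_cases hι : Nonempty V
      · obtain ⟨i⟩ := hι
        refine ⟨z i, ?_⟩
        funext j
        simp [hc j i]
      · refine ⟨0, ?_⟩
        funext j
        exact absurd ⟨j⟩ hι
    calc _ ≤ Module.finrank ℚ
          (Submodule.span ℚ {(fun _ => 1 : V → ℚ)}) := Submodule.finrank_mono this
      _ ≤ 1 := by
        have := finrank_span_le_card (R := ℚ) ({(fun _ => 1 : V → ℚ)} : Set (V → ℚ))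
        simpa using this
  have h1 := LinearMap.finrank_range_add_finrank_ker (grad s t)
  rw [Module.finrank_fintype_fun_eq_card] at h1
  have h2 := LinearMap.finrank_range_of_inj hD
  rw [Module.finrank_fintype_fun_eq_card] at h2
  have hdisj : Disjoint (LinearMap.range (grad s t)) (LinearMap.range D) := by
    rw [Submodule.disjoint_def]
    rintro x ⟨y, hy⟩ ⟨n, hn⟩
    have h := sum_grad_mul s t (D n) (hdiv n) y
    rw [hy, hn] at h
    have h0 := (Finset.sum_eq_zero_iff_of_nonneg (fun e _ => mul_self_nonneg (x e))).1 h
    funext e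
    exact mul_self_eq_zero.1 (h0 e (Finset.mem_univ e))
  have h3 := Submodule.finrank_add_finrank_le_of_disjoint hdisj
  rw [Module.finrank_fintype_fun_eq_card, h2] at h3
  omega

end Vale.Agent.P039.Bn.L2
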