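import Vale.Agent.P039.Bn.L2.T0
import Vale.Agent.P039.Bar.H307.Hu

/-! T1 of row L2 of P039-B: the two sides of an alternating cycle. -/

namespace Vale.Agent.P039.Bn

namespace PMap

open Vale.Agent.P039.Bar

variable {B W V : Type} (M : PMap B W V)

section
variable [Fintype B] [Fintype V] [DecidableEq V] [DecidableEq B] [DecidableEq W]

omit [Fintype V] [DecidableEq W] in
theorem cyc_flow {f g : B → Fin 3} {S : Finset B} {nx : B → B} (h : M.IsAlt f g S nx) :
    M.IsFlow (cyc f g S) := by
  classical
  constructor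
  · intro b
    unfold cyc
    by_cases hb : b ∈ S
    · simp [hb, Finset.sum_sub_distrib]
    · simp [hb]
  · intro v
    have h1 : ∀ b, (∑ j, if M.c j b = v then cyc f g S b j else 0) =
        if b ∈ S then ((if M.c (f b) b = v then (1 : ℚ) else 0) -
          (if M.c (g b) b = v then 1 else 0)) else 0 := by
      intro b
      unfold cyc
      by_cases hb : b ∈ S
      · simp only [hb, if_true]
        have : ∀ j, (if M.c j b = v then ((if j = f b then (1 : ℚ) else 0) -
            (if j = g b then 1 else 0)) else 0) =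
            (if j = f b then (if M.c (f b) b = v then (1 : ℚ) else 0) else 0) -
            (if j = g b then (if M.c (g b) b = v then (1 : ℚ) else 0) else 0) := by
          intro j
          by_cases h1 : j = f b
          · by_cases h2 : j = g b
            · subst h1; rw [← h2]; split_ifs <;> simp
            · subst h1; rw [if_neg h2, if_neg h2]; split_ifs <;> simp
          · by_cases h2 : j = g b
            · subst h2; rw [if_neg h1, if_neg h1]; split_ifs <;> simp
            · simp [h1, h2]
        simp only [this, Finset.sum_sub_distrib, Finset.sum_ite_eq', Finset.mem_univ, if_true]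
      · simp [hb]
    simp only [h1]
    rw [← Finset.sum_filter, Finset.filter_mem_eq_inter, Finset.univ_inter,
      Finset.sum_sub_distrib, sub_eq_zero]
    refine Finset.sum_bij (fun b _ => nx b) h.maps h.nxinj ?_ ?_
    · intro b hb
      have hinj : Set.InjOn nx (S : Set B) := fun x hx y hy hxy => h.nxinj x hx y hy hxy
      have hmaps : Set.MapsTo nx (S : Set B) (S : Set B) := fun x hx => h.maps x hx
      have := Finset.surjOn_of_injOn_of_card_le nx (s := S) (t := S) hmaps hinj le_rfl hb
      obtain ⟨a, ha, hab⟩ := this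
      exact ⟨a, ha, hab⟩
    · intro b hb
      rw [h.face b hb]

omit [Fintype V] [DecidableEq B] [DecidableEq W] in
theorem bd_flow (n : W → ℚ) : M.IsFlow (M.bd n) := by
  classical
  have : Fintype W := Fintype.ofEquiv B (M.e 0)
  have : Fintype V := Fintype.ofSurjective (fun p : Fin 3 × B => M.c p.1 p.2)
    (fun v => by obtain ⟨j, b, h⟩ := M.surj v; exact ⟨(j, b), h⟩)
  have h := H307.pmat_dmat (M := M) n
  constructor
  · intro b
    have h1 := congrFun h (Sum.inl b)
    rw [H307.pmat_mulVec_inl] at h1
    simp only [H307.dmat_mulVec] at h1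
    exact h1
  · intro v
    have h1 := congrFun h (Sum.inr v)
    rw [H307.pmat_mulVec_inr] at h1
    simp only [H307.dmat_mulVec] at h1
    rw [Finset.sum_comm]
    exact h1

omit [Fintype V] [DecidableEq W] in
/-- a flow supported on an alternating cycle is a multiple of its flow -/
theorem flow_on_cyc {f g : B → Fin 3} {S : Finset B} {nx : B → B} (h : M.IsAlt f g S nx)
    (y : B → Fin 3 → ℚ) (hy : M.IsFlow y) (hs : ∀ b j, cyc f g S b j = 0 → y b j = 0) :
    ∃ t : ℚ, ∀ b j, y b j = t * cyc f g S b j := by
  classical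
  have hout : ∀ b, b ∉ S → ∀ j, y b j = 0 := fun b hb j => hs b j (by simp [cyc, hb])
  have hthird : ∀ b ∈ S, ∀ j, j ≠ f b → j ≠ g b → y b j = 0 := fun b hb j h1 h2 =>
    hs b j (by simp [cyc, hb, h1, h2])
  -- at a black
  have hb1 : ∀ b ∈ S, y b (g b) = - y b (f b) := by
    intro b hb
    have h0 := hy.1 b
    have hne := h.ne b hb
    have h3 : ∀ k : Fin 3, k ≠ f b → k ≠ g b → y b k = 0 := hthird b hb
    have : ∑ j, y b j = y b (f b) + y b (g b) := by
      rw [← Finset.sum_subset (Finset.subset_univ {f b, g b}), Finset.sum_pair hne]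
      intro k _ hk
      simp only [Finset.mem_insert, Finset.mem_singleton, not_or] at hk
      exact h3 k hk.1 hk.2
    linarith
  -- at a face
  have hf1 : ∀ b ∈ S, y (nx b) (g (nx b)) = - y b (f b) := by
    intro b hb
    have hnx := h.maps b hb
    have h0 := hy.2 (M.c (f b) b)
    rw [← Fintype.sum_prod_type' (f := fun b' j => if M.c j b' = M.c (f b) b then y b' j else 0)]
      at h0
    have hne : ((b, f b) : B × Fin 3) ≠ (nx b, g (nx b)) := by
      intro he
      rw [Prod.mk.injEq] at he
      obtain ⟨e1, e2⟩ := he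
      rw [← e1] at e2
      exact h.ne b hb e2
    have hsum : ∑ p : B × Fin 3, (if M.c p.2 p.1 = M.c (f b) b then y p.1 p.2 else 0) =
        y b (f b) + y (nx b) (g (nx b)) := by
      rw [← Finset.sum_subset (Finset.subset_univ {((b, f b) : B × Fin 3), (nx b, g (nx b))}),
        Finset.sum_pair hne]
      · simp only [if_true]
        rw [if_pos (h.face b hb).symm]
      · rintro ⟨b', j⟩ _ hk
        simp only [Finset.mem_insert, Finset.mem_singleton, not_or, Prod.mk.injEq, not_and] at hk
        simp only
        split_ifs with hc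
        swap
        · rfl
        by_cases hb' : b' ∈ S
        swap
        · exact hout b' hb' j
        by_cases hj1 : j = f b'
        · exfalso
          subst hj1
          -- c (f b') b' = c (f b) b, so nx b' = nx b
          have e1 := h.face b' hb'
          have e2 := h.face b hb
          have e3 : nx b' = nx b := h.inj _ (h.maps b' hb') _ hnx (by rw [← e1, ← e2, hc])
          have e4 : b' = b := h.nxinj b' hb' b hb e3
          exact hk.1 e4 (by rw [e4])
        · by_cases hj2 : j = g b'
          · exfalso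
            subst hj2
            have e2 := h.face b hb
            have e3 : b' = nx b := h.inj _ hb' _ hnx (by rw [← e2, hc])
            exact hk.2 e3 (by rw [e3])
          · exact hthird b' hb' j hj1 hj2
    rw [hsum] at h0
    linarith
  obtain ⟨b₁, hb₁⟩ := h.nonempty
  have hconst := h.single {b | b ∈ S → y b (f b) = y b₁ (f b₁)} ⟨b₁, hb₁, fun _ => rfl⟩
    (by
      intro b hb hbX hnx
      have e := hbX hb
      have e1 := hb1 (nx b) (h.maps b hb)
      have e2 := hf1 b hb
      have : y (nx b) (f (nx b)) = y b (f b) := by linarith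
      rw [this, e])
  refine ⟨y b₁ (f b₁), fun b j => ?_⟩
  by_cases hb : b ∈ S
  swap
  · rw [hout b hb, cyc, if_neg hb, mul_zero]
  have e : y b (f b) = y b₁ (f b₁) := hconst b hb hb
  have hne := h.ne b hb
  by_cases hj1 : j = f b
  · subst hj1
    rw [cyc, if_pos hb, if_pos rfl, if_neg hne, e]; ring
  · by_cases hj2 : j = g b
    · subst hj2
      rw [cyc, if_pos hb, if_pos rfl, if_neg hj1, hb1 b hb, e]; ring
    · rw [hthird b hb j hj1 hj2, cyc, if_pos hb, if_neg hj1, if_neg hj2]; ring

theorem t1 : M.T1 := by
  classical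
  intro hM f g S nx b0 h hb0
  have : Fintype W := Fintype.ofEquiv B (M.e 0)
  obtain ⟨n, hn⟩ := M.t0 hM _ (M.cyc_flow h)
  have hne : Nonempty W := ⟨M.e 0 b0⟩
  obtain ⟨wm, hwm⟩ := Finite.exists_max n
  let I' : Finset W := Finset.univ.filter fun w => n w = n wm
  have hI' : ∀ w, w ∈ I' ↔ n w = n wm := fun w => by simp [I']
  let y : B → Fin 3 → ℚ := M.bd (fun w => if w ∈ I' then 1 else 0)
  have hyflow : M.IsFlow y := M.bd_flow _
  obtain ⟨t, ht⟩ := M.flow_on_cyc h y hyflow (by
    intro b j hbj
    rw [hn b j] at hbj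
    have e : n (M.e (j + 1) b) = n (M.e (j + 2) b) := sub_eq_zero.1 hbj
    show (if M.e (j + 1) b ∈ I' then (1 : ℚ) else 0) -
      (if M.e (j + 2) b ∈ I' then (1 : ℚ) else 0) = 0
    simp only [hI', e, sub_self])
  obtain ⟨b₁, hb₁⟩ := h.nonempty
  have hx1 : cyc f g S b₁ (f b₁) = 1 := by
    rw [cyc, if_pos hb₁, if_pos rfl, if_neg (h.ne b₁ hb₁), sub_zero]
  -- n is not constant
  have hnc : ∃ w, n w ≠ n wm := by
    by_contra hcon
    push Not at hcon
    have e := hn b₁ (f b₁)
    rw [hx1, bd, hcon (M.e (f b₁ + 1) b₁), hcon (M.e (f b₁ + 2) b₁), sub_self] at e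
    exact one_ne_zero e
  obtain ⟨w₁, hw₁⟩ := hnc
  have ht0 : t ≠ 0 := by
    intro h0
    have e := H307.bd_const hM.conn (fun w => if w ∈ I' then (1 : ℚ) else 0) (by
      intro j b
      have e := ht b j
      rw [h0, zero_mul] at e
      exact sub_eq_zero.1 e) wm w₁
    simp only [hI', if_true, if_neg hw₁] at e
    exact one_ne_zero e
  have hyv : y b₁ (f b₁) = t := by rw [ht, hx1, mul_one]
  have ht1 : t = 1 ∨ t = -1 := by
    have e : (if M.e (f b₁ + 1) b₁ ∈ I' then (1 : ℚ) else 0) -
      (if M.e (f b₁ + 2) b₁ ∈ I' then (1 : ℚ) else 0) = t := hyv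
    split_ifs at e
    · exact absurd (by rw [← e]; ring) ht0
    · left; rw [← e]; ring
    · right; rw [← e]; ring
    · exact absurd (by rw [← e]; ring) ht0
  have hx : ∀ b j, cyc f g S b j = t * ((if M.e (j + 1) b ∈ I' then (1 : ℚ) else 0) -
      (if M.e (j + 2) b ∈ I' then (1 : ℚ) else 0)) := by
    intro b j
    have e : (if M.e (j + 1) b ∈ I' then (1 : ℚ) else 0) -
      (if M.e (j + 2) b ∈ I' then (1 : ℚ) else 0) = t * cyc f g S b j := ht b j
    rw [e]
    rcases ht1 with rfl | rfl <;> ring
  -- all whites at b0 have the same value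
  have hb0e : ∀ i j, n (M.e i b0) = n (M.e j b0) := by
    have h0 : ∀ j, n (M.e (j + 1) b0) = n (M.e (j + 2) b0) := by
      intro j
      have e := hn b0 j
      rw [cyc, if_neg hb0] at e
      exact sub_eq_zero.1 e.symm
    intro i j
    rcases fcase i j with rfl | rfl | rfl
    · rfl
    · have e := h0 (j + 2)
      rw [f21, f22] at e
      exact e.symm
    · have e := h0 (j + 1)
      rw [f11, f12] at e
      exact e
  by_cases hin : n (M.e 0 b0) = n wm
  · refine ⟨-t, Finset.univ.filter (fun w => w ∉ I'), ?_, ?_, ?_, ?_⟩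
    · rcases ht1 with rfl | rfl
      · right; rfl
      · left; ring
    · exact ⟨w₁, by simp only [Finset.mem_filter, Finset.mem_univ, true_and, hI']; exact hw₁⟩
    · intro j hj
      simp only [Finset.mem_filter, Finset.mem_univ, true_and, hI'] at hj
      exact hj (by rw [hb0e j 0, hin])
    · intro b j
      rw [hx b j]
      simp only [Finset.mem_filter, Finset.mem_univ, true_and]
      by_cases h1 : M.e (j + 1) b ∈ I' <;> by_cases h2 : M.e (j + 2) b ∈ I' <;>
        simp [h1, h2]
  · refine ⟨t, I', ht1, ⟨wm, by rw [hI']⟩, ?_, hx⟩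
    intro j hj
    rw [hI'] at hj
    exact hin (by rw [hb0e 0 j, hj])

end

end PMap

end Vale.Agent.P039.Bn
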