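import Mathlib
import Vale.Agent.P039.Bn.Defs

/-! Row L2 of P039-B: flows on the corners, alternating cycles, their two sides. -/

namespace Vale.Agent.P039.Bn

namespace PMap

variable {B W V : Type} (M : PMap B W V)

/-- The boundary of a function on the whites (a 2-chain of hexagons): a function on the corners
`(b, j)` (the edges of `J`: black `b`, face `c j b`). -/
def bd (n : W → ℚ) (b : B) (j : Fin 3) : ℚ := n (M.e (j + 1) b) - n (M.e (j + 2) b)

/-- A flow on the corners. -/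
def IsFlow [Fintype B] [DecidableEq V] (x : B → Fin 3 → ℚ) : Prop :=
  (∀ b, ∑ j, x b j = 0) ∧ ∀ v, (∑ b, ∑ j, if M.c j b = v then x b j else 0) = 0

/-- `g` matches the blacks other than `b0` with the faces not at `b0`. -/
structure IsMatch (b0 : B) (g : B → Fin 3) : Prop where
  inj : ∀ b b', b ≠ b0 → b' ≠ b0 → M.c (g b) b = M.c (g b') b' → b = b'
  surj : ∀ v, (∀ j, M.c j b0 ≠ v) → ∃ b, b ≠ b0 ∧ M.c (g b) b = v
  avoid : ∀ b, b ≠ b0 → ∀ j, M.c (g b) b ≠ M.c j b0

/-- `S` is the set of blacks of a simple cycle of `J`: the cycle leaves `b ∈ S` by the corner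
`(b, f b)` and enters it by the corner `(b, g b)`; the next black is `nx b`. -/
structure IsAlt (f g : B → Fin 3) (S : Finset B) (nx : B → B) : Prop where
  ne : ∀ b ∈ S, f b ≠ g b
  nonempty : S.Nonempty
  maps : ∀ b ∈ S, nx b ∈ S
  face : ∀ b ∈ S, M.c (f b) b = M.c (g (nx b)) (nx b)
  inj : ∀ b ∈ S, ∀ b' ∈ S, M.c (g b) b = M.c (g b') b' → b = b'
  nxinj : ∀ b ∈ S, ∀ b' ∈ S, nx b = nx b' → b = b'
  single : ∀ X : Set B, (∃ b ∈ S, b ∈ X) → (∀ b ∈ S, b ∈ X → nx b ∈ X) → ∀ b ∈ S, b ∈ X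

/-- The flow of an alternating cycle. -/
def cyc [DecidableEq B] (f g : B → Fin 3) (S : Finset B) (b : B) (j : Fin 3) : ℚ :=
  if b ∈ S then (if j = f b then 1 else 0) - (if j = g b then 1 else 0) else 0

/-- T0: the cycle space of `J` is the image of the boundary. -/
def T0 [Fintype B] [Fintype V] [DecidableEq V] : Prop :=
  M.Sph → ∀ x : B → Fin 3 → ℚ, M.IsFlow x → ∃ n : W → ℚ, ∀ b j, x b j = M.bd n b j

/-- T1: the two sides of an alternating cycle, `I` is the side without the whites of `b0`,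
`s = ± 1` is its orientation. -/
def T1 [Fintype B] [Fintype V] [DecidableEq V] [DecidableEq B] [DecidableEq W] : Prop :=
  M.Sph → ∀ (f g : B → Fin 3) (S : Finset B) (nx : B → B) (b0 : B), M.IsAlt f g S nx → b0 ∉ S →
    ∃ (s : ℚ) (I : Finset W), (s = 1 ∨ s = -1) ∧ I.Nonempty ∧ (∀ j, M.e j b0 ∉ I) ∧
      ∀ b j, cyc f g S b j =
        s * ((if M.e (j + 1) b ∈ I then 1 else 0) - (if M.e (j + 2) b ∈ I then 1 else 0))

/-- T2 (STEP 2): if `g` is a matching off `b0`, the number `k` of blacks of the cycle is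
`3 + 2 * (number of third corners inside)`; the third corner of `b` is inside iff the white
`e (f b) b` is inside. -/
def T2 [Fintype B] [Fintype V] [DecidableEq V] [DecidableEq B] [DecidableEq W] : Prop :=
  M.Sph → ∀ (f g : B → Fin 3) (S : Finset B) (nx : B → B) (b0 : B), M.IsAlt f g S nx → b0 ∉ S →
    M.IsMatch b0 g → ∀ (s : ℚ) (I : Finset W), (s = 1 ∨ s = -1) → I.Nonempty →
      (∀ j, M.e j b0 ∉ I) →
      (∀ b j, cyc f g S b j =
        s * ((if M.e (j + 1) b ∈ I then 1 else 0) - (if M.e (j + 2) b ∈ I then 1 else 0))) →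
      S.card = 2 * (S.filter fun b => M.e (f b) b ∈ I).card + 3

end PMap

end Vale.Agent.P039.Bn
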