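import Mathlib
import Vale.Agent.P039.Bn.L2.Defs

/-! The rank inequality. -/

namespace Vale.Agent.P039.Bn.L2

open Finset

variable {V E I : Type} [Fintype V] [Fintype E] [Fintype I]

/-- If the graph with edges `e`, from `s e` to `t e`, is connected and `D` is an injective linear
map from functions on `I` to divergence free functions on the edges, then `|I| + |V| ≤ |E| + 1`. -/
theorem rank_ineq [Nonempty V] (s t : E → V)
    (hconn : ∀ h : V → ℚ, (∀ e, h (s e) = h (t e)) → ∀ u v, h u = h v)
    (D : (I → ℚ) →ₗ[ℚ] (E → ℚ)) (hinj : Function.Injective D)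
    (hdiv : ∀ n (h : V → ℚ), ∑ e, (h (s e) - h (t e)) * D n e = 0) :
    Fintype.card I + Fintype.card V ≤ Fintype.card E + 1 := by
  classical
  let G : (V → ℚ) →ₗ[ℚ] (E → ℚ) :=
    { toFun := fun h e => h (s e) - h (t e)
      map_add' := fun x y => by ext e; simp; ring
      map_smul' := fun a x => by ext e; simp; ring }
  have hG : ∀ h e, G h e = h (s e) - h (t e) := fun h e => rfl
  obtain ⟨v0⟩ := ‹Nonempty V›
  have hker : LinearMap.ker G ≤ Submodule.span ℚ {(fun _ => 1 : V → ℚ)} := by
    intro h hh
    rw [LinearMap.mem_ker] at hh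
    rw [Submodule.mem_span_singleton]
    refine ⟨h v0, ?_⟩
    ext v
    simp only [Pi.smul_apply, smul_eq_mul, mul_one]
    refine hconn h (fun e => ?_) v0 v
    have h1 := congrFun hh e
    rw [hG] at h1
    exact sub_eq_zero.1 h1
  have hne : (fun _ => 1 : V → ℚ) ≠ 0 := by
    intro h
    have := congrFun h v0
    simp at this
  have h1 : Module.finrank ℚ (LinearMap.ker G) ≤ 1 := by
    have := Submodule.finrank_mono hker
    rwa [finrank_span_singleton hne] at this
  have h2 : Module.finrank ℚ (LinearMap.range G) + Module.finrank ℚ (LinearMap.ker G)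
      = Fintype.card V := by
    rw [LinearMap.finrank_range_add_finrank_ker]; simp
  have h3 : Module.finrank ℚ (LinearMap.range D) = Fintype.card I := by
    rw [LinearMap.finrank_range_of_inj hinj]; simp
  have hdisj : LinearMap.range G ⊓ LinearMap.range D = ⊥ := by
    rw [eq_bot_iff]
    rintro x ⟨⟨h, hh⟩, ⟨n, hn⟩⟩
    rw [Submodule.mem_bot]
    have h4 : ∑ e, x e * x e = 0 := by
      rw [← hdiv n h]
      refine Finset.sum_congr rfl fun e _ => ?_
      rw [hn, ← hG, hh]
    rw [Finset.sum_eq_zero_iff_of_nonneg (fun e _ => mul_self_nonneg _)] at h4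
    ext e
    exact mul_self_eq_zero.1 (h4 e (Finset.mem_univ _))
  have h5 := Submodule.finrank_sup_add_finrank_inf_eq (LinearMap.range G) (LinearMap.range D)
  rw [hdisj, finrank_bot, h3] at h5
  have h6 := Submodule.finrank_le (LinearMap.range G ⊔ LinearMap.range D)
  rw [Module.finrank_fintype_fun_eq_card] at h6
  omega

end Vale.Agent.P039.Bn.L2
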