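import Mathlib
import Vale.Agent.P039.Bn.L2.Defs
import Vale.Agent.P039.Bn.L2.RankA

/-! STEP 2: the number of third corners inside an alternating cycle. -/

set_option linter.unusedSectionVars false

namespace Vale.Agent.P039.Bn.L2

open Finset PMap

variable {B W V : Type}

/-- The two sides `I`, `Iᶜ` of the cycle. -/
structure Sides (M : PMap B W V) (f g : B → Fin 3) (S : Finset B) (nx : B → B)
    (I : Finset W) : Prop where
  alt : M.IsAlt f g S nx
  out : ∀ b, b ∉ S → ∀ j, (M.e (j + 1) b ∈ I ↔ M.e (j + 2) b ∈ I)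
  fc : ∀ b ∈ S, ¬ (M.e (f b + 1) b ∈ I ↔ M.e (f b + 2) b ∈ I)
  gc : ∀ b ∈ S, ¬ (M.e (g b + 1) b ∈ I ↔ M.e (g b + 2) b ∈ I)
  th : ∀ b ∈ S, ∀ j, j ≠ f b → j ≠ g b → (M.e (j + 1) b ∈ I ↔ M.e (j + 2) b ∈ I)

variable {M : PMap B W V} {f g : B → Fin 3} {S : Finset B} {nx : B → B} {I : Finset W}

theorem Sides.compl [Fintype W] [DecidableEq W] (h : Sides M f g S nx I) :
    Sides M f g S nx Iᶜ where
  alt := h.alt
  out b hb j := by simp only [mem_compl]; rw [h.out b hb j]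
  fc b hb := by simp only [mem_compl]; rw [not_iff_not]; exact h.fc b hb
  gc b hb := by simp only [mem_compl]; rw [not_iff_not]; exact h.gc b hb
  th b hb j h1 h2 := by simp only [mem_compl]; rw [h.th b hb j h1 h2]

/-- off the cycle all three whites of a black are on the same side -/
theorem Sides.out3 (h : Sides M f g S nx I) {b : B} (hb : b ∉ S) (i j : Fin 3) :
    (M.e i b ∈ I ↔ M.e j b ∈ I) := by
  have h0 := h.out b hb 0
  have h1 := h.out b hb 1
  have h2 := h.out b hb 2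
  have e0 : (0 : Fin 3) + 1 = 1 := rfl
  have e1 : (0 : Fin 3) + 2 = 2 := rfl
  have e2 : (1 : Fin 3) + 1 = 2 := rfl
  have e3 : (1 : Fin 3) + 2 = 0 := rfl
  have e4 : (2 : Fin 3) + 1 = 0 := rfl
  have e5 : (2 : Fin 3) + 2 = 1 := rfl
  rw [e0, e1] at h0
  rw [e2, e3] at h1
  rw [e4, e5] at h2
  fin_cases i <;> fin_cases j <;> simp_all

/-- the face `v` is not on the cycle -/
def OffC (M : PMap B W V) (g : B → Fin 3) (S : Finset B) (v : V) : Prop :=
  ∀ b ∈ S, M.c (g b) b ≠ v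

theorem Sides.corner (h : Sides M f g S nx I) {v : V} (hv : OffC M g S v) {b : B} {j : Fin 3}
    (hb : M.c j b = v) : (M.e (j + 1) b ∈ I ↔ M.e (j + 2) b ∈ I) := by
  by_cases hS : b ∈ S
  · apply h.th b hS j
    · rintro rfl
      have h1 := h.alt.face b hS
      rw [hb] at h1
      exact hv _ (h.alt.maps b hS) h1.symm
    · rintro rfl
      exact hv b hS hb
  · exact h.out b hS j

theorem Sides.around [Finite B] (h : Sides M f g S nx I) {v : V} (hv : OffC M g S v) {b b' : B}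
    {j : Fin 3} (hb : M.c j b = v) (hb' : M.c j b' = v) :
    (M.e (j + 1) b ∈ I ↔ M.e (j + 1) b' ∈ I) := by
  obtain ⟨n, rfl⟩ := (M.same_iff j b b').1 (hb.trans hb'.symm)
  clear hb'
  induction n with
  | zero => exact Iff.rfl
  | succ n ih =>
    rw [ih, pow_succ', Equiv.Perm.mul_apply, M.e_rho]
    exact h.corner hv (by rw [M.c_rho_pow]; exact hb)

variable [Fintype B] [Fintype W] [Fintype V] [DecidableEq B] [DecidableEq W] [DecidableEq V]

/-- blacks, faces, corners touching `I` -/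
def BI (M : PMap B W V) (I : Finset W) : Finset B := univ.filter fun b => ∃ j, M.e j b ∈ I

def VI (M : PMap B W V) (I : Finset W) : Finset V :=
  univ.filter fun v => ∃ b j, M.c j b = v ∧ (M.e (j + 1) b ∈ I ∨ M.e (j + 2) b ∈ I)

def EI (M : PMap B W V) (I : Finset W) : Finset (B × Fin 3) :=
  univ.filter fun x => M.e (x.2 + 1) x.1 ∈ I ∨ M.e (x.2 + 2) x.1 ∈ I

theorem mem_BI {b : B} : b ∈ BI M I ↔ ∃ j, M.e j b ∈ I := by simp [BI]

theorem mem_VI {v : V} : v ∈ VI M I ↔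
    ∃ b j, M.c j b = v ∧ (M.e (j + 1) b ∈ I ∨ M.e (j + 2) b ∈ I) := by simp [VI]

theorem mem_EI {x : B × Fin 3} : x ∈ EI M I ↔
    (M.e (x.2 + 1) x.1 ∈ I ∨ M.e (x.2 + 2) x.1 ∈ I) := by simp [EI]

omit [Fintype V] [DecidableEq B] [DecidableEq W] [DecidableEq V] in
/-- boundaries are orthogonal to gradients -/
theorem orth (M : PMap B W V) (N : W → ℚ) (hB : B → ℚ) (hV : V → ℚ) :
    ∑ b, ∑ j, (hB b - hV (M.c j b)) * M.bd N b j = 0 := by
  have h1 : ∀ b, ∑ j, M.bd N b j = 0 := by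
    intro b
    simp only [PMap.bd, Fin.sum_univ_three]
    have e0 : (0 : Fin 3) + 1 = 1 := rfl
    have e1 : (0 : Fin 3) + 2 = 2 := rfl
    have e2 : (1 : Fin 3) + 1 = 2 := rfl
    have e3 : (1 : Fin 3) + 2 = 0 := rfl
    have e4 : (2 : Fin 3) + 1 = 0 := rfl
    have e5 : (2 : Fin 3) + 2 = 1 := rfl
    rw [e0, e1, e2, e3, e4, e5]; ring
  have h2 : ∀ j : Fin 3, ∑ b, hV (M.c j b) * M.bd N b j = 0 := by
    intro j
    have h3 : ∀ b, hV (M.c j b) * M.bd N b j =
        (fun w => hV (M.cw j w) * N w) (M.e (j + 1) b) -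
        (fun w => hV (M.cw j w) * N w) (M.e (j + 2) b) := by
      intro b
      simp only [PMap.bd]
      rw [M.cw_e1, M.cw_e2]; ring
    rw [Finset.sum_congr rfl fun b _ => h3 b, Finset.sum_sub_distrib,
      Equiv.sum_comp (M.e (j + 1)) (fun w => hV (M.cw j w) * N w),
      Equiv.sum_comp (M.e (j + 2)) (fun w => hV (M.cw j w) * N w), sub_self]
  have h4 : ∑ b, ∑ j, (hB b - hV (M.c j b)) * M.bd N b j =
      (∑ b, hB b * ∑ j, M.bd N b j) - ∑ j, ∑ b, hV (M.c j b) * M.bd N b j := by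
    rw [Finset.sum_comm (f := fun j b => hV (M.c j b) * M.bd N b j), ← Finset.sum_sub_distrib]
    refine Finset.sum_congr rfl fun b _ => ?_
    rw [Finset.mul_sum, ← Finset.sum_sub_distrib]
    exact Finset.sum_congr rfl fun j _ => by ring
  rw [h4, Finset.sum_congr rfl fun j _ => h2 j]
  simp [h1]

omit [Fintype V] [DecidableEq B] [DecidableEq W] [DecidableEq V] [Fintype W] in
theorem const_of_bd (hM : M.Conn) {n : W → ℚ} (h : ∀ b j, M.bd n b j = 0) (w w' : W) :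
    n w = n w' := by
  have h1 : ∀ b j, n (M.e (j + 1) b) = n (M.e (j + 2) b) := fun b j => sub_eq_zero.1 (h b j)
  have h3 : ∀ b i j, n (M.e i b) = n (M.e j b) := by
    intro b i j
    have a0 := h1 b 0
    have a1 := h1 b 1
    have a2 := h1 b 2
    have e0 : (0 : Fin 3) + 1 = 1 := rfl
    have e1 : (0 : Fin 3) + 2 = 2 := rfl
    have e2 : (1 : Fin 3) + 1 = 2 := rfl
    have e3 : (1 : Fin 3) + 2 = 0 := rfl
    have e4 : (2 : Fin 3) + 1 = 0 := rfl
    have e5 : (2 : Fin 3) + 2 = 1 := rfl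
    rw [e0, e1] at a0
    rw [e2, e3] at a1
    rw [e4, e5] at a2
    fin_cases i <;> fin_cases j <;> simp_all
  have h4 : ∀ b b', Relation.EqvGen (fun x y => ∃ j, M.c j x = M.c j y) b b' →
      n (M.e 0 b) = n (M.e 0 b') := by
    intro b b' hbb
    induction hbb with
    | rel x y hxy =>
      obtain ⟨j, hj⟩ := hxy
      obtain ⟨k, rfl⟩ := (M.same_iff j x y).1 hj
      clear hj
      induction k with
      | zero => rfl
      | succ k ih =>
        rw [ih, pow_succ', Equiv.Perm.mul_apply, h3 _ 0 (j + 2), ← M.e_rho, h3 _ (j + 1) 0]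
    | refl x => rfl
    | symm x y _ ih => exact ih.symm
    | trans x y z _ _ ih1 ih2 => exact ih1.trans ih2
  have h5 := h4 _ _ (hM ((M.e 0).symm w) ((M.e 0).symm w'))
  simpa using h5

/-- extension by zero -/
def ext0 (I : Finset W) (n : {w // w ∈ I} → ℚ) (w : W) : ℚ := if h : w ∈ I then n ⟨w, h⟩ else 0

theorem ext0_add (n m : {w // w ∈ I} → ℚ) (w : W) :
    ext0 I (n + m) w = ext0 I n w + ext0 I m w := by
  unfold ext0; split <;> simp

theorem ext0_smul (a : ℚ) (n : {w // w ∈ I} → ℚ) (w : W) :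
    ext0 I (a • n) w = a * ext0 I n w := by
  unfold ext0; split <;> simp

/-- the boundary of functions on `I`, as a function on the corners touching `I` -/
def D (M : PMap B W V) (I : Finset W) :
    ({w // w ∈ I} → ℚ) →ₗ[ℚ] ({x // x ∈ EI M I} → ℚ) where
  toFun n x := M.bd (ext0 I n) x.1.1 x.1.2
  map_add' n m := by
    ext x
    simp only [PMap.bd, Pi.add_apply, ext0_add]; ring
  map_smul' a n := by
    ext x
    simp only [PMap.bd, Pi.smul_apply, ext0_smul, RingHom.id_apply, smul_eq_mul]; ring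

theorem D_inj (hM : M.Conn) (hI : (Iᶜ).Nonempty) : Function.Injective (D M I) := by
  rw [← LinearMap.ker_eq_bot, LinearMap.ker_eq_bot']
  intro n hn
  have h1 : ∀ b j, M.bd (ext0 I n) b j = 0 := by
    intro b j
    by_cases hx : (b, j) ∈ EI M I
    · exact congrFun hn ⟨(b, j), hx⟩
    · rw [mem_EI] at hx
      push Not at hx
      have a1 : M.e (j + 1) b ∉ I := hx.1
      have a2 : M.e (j + 2) b ∉ I := hx.2
      simp [PMap.bd, ext0, a1, a2]
  obtain ⟨w0, hw0⟩ := hI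
  ext ⟨w, hw⟩
  have h2 := const_of_bd hM h1 w w0
  have hw0' : w0 ∉ I := by simpa using hw0
  simpa [ext0, hw, hw0'] using h2

theorem D_div (n : {w // w ∈ I} → ℚ) (h : {b // b ∈ BI M I} ⊕ {v // v ∈ VI M I} → ℚ)
    (s : {x // x ∈ EI M I} → {b // b ∈ BI M I} ⊕ {v // v ∈ VI M I})
    (t : {x // x ∈ EI M I} → {b // b ∈ BI M I} ⊕ {v // v ∈ VI M I})
    (hs : ∀ x, ∃ hb, s x = Sum.inl ⟨x.1.1, hb⟩)
    (ht : ∀ x, ∃ hv, t x = Sum.inr ⟨M.c x.1.2 x.1.1, hv⟩) :
    ∑ x, (h (s x) - h (t x)) * D M I n x = 0 := by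
  have h0 := orth M (ext0 I n) (fun b => if hb : b ∈ BI M I then h (Sum.inl ⟨b, hb⟩) else 0)
    (fun v => if hv : v ∈ VI M I then h (Sum.inr ⟨v, hv⟩) else 0)
  let F : B × Fin 3 → ℚ := fun x =>
    ((if hb : x.1 ∈ BI M I then h (Sum.inl ⟨x.1, hb⟩) else 0) -
      (if hv : M.c x.2 x.1 ∈ VI M I then h (Sum.inr ⟨M.c x.2 x.1, hv⟩) else 0)) *
      M.bd (ext0 I n) x.1 x.2
  have h1 : ∑ x : B × Fin 3, F x = 0 := by
    rw [Fintype.sum_prod_type]; exact h0
  have h2 : ∑ x ∈ EI M I, F x = ∑ x : B × Fin 3, F x := by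
    refine Finset.sum_subset (Finset.subset_univ _) ?_
    rintro ⟨b, j⟩ _ hx
    rw [mem_EI] at hx
    push Not at hx
    have a1 : M.e (j + 1) b ∉ I := hx.1
    have a2 : M.e (j + 2) b ∉ I := hx.2
    simp [F, PMap.bd, ext0, a1, a2]
  rw [← h1, ← h2, ← Finset.sum_coe_sort (EI M I) F]
  refine Finset.sum_congr rfl fun x _ => ?_
  obtain ⟨hb, hb'⟩ := hs x
  obtain ⟨hv, hv'⟩ := ht x
  simp only [F]
  rw [hb', hv', dif_pos hb, dif_pos hv]
  rfl

/-- connectivity of the closed side -/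
theorem Sides.conn (h : Sides M f g S nx I) (hM : M.Conn)
    (k : {b // b ∈ BI M I} ⊕ {v // v ∈ VI M I} → ℚ)
    (hk : ∀ b j (hb : b ∈ BI M I) (hv : M.c j b ∈ VI M I), (b, j) ∈ EI M I →
      k (Sum.inl ⟨b, hb⟩) = k (Sum.inr ⟨M.c j b, hv⟩)) : ∀ u v, k u = k v := by
  obtain ⟨b1, hb1⟩ := h.alt.nonempty
  have eB : ∀ {b j}, (b, j) ∈ EI M I → b ∈ BI M I := by
    intro b j hx
    rw [mem_EI] at hx
    rw [mem_BI]
    rcases hx with hx | hx <;> exact ⟨_, hx⟩
  have eV : ∀ {b j}, (b, j) ∈ EI M I → M.c j b ∈ VI M I := by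
    intro b j hx
    rw [mem_EI] at hx
    rw [mem_VI]
    exact ⟨b, j, rfl, hx⟩
  have gE : ∀ b ∈ S, (b, g b) ∈ EI M I := by
    intro b hb
    have := h.gc b hb
    rw [mem_EI]; tauto
  have fE : ∀ b ∈ S, (b, f b) ∈ EI M I := by
    intro b hb
    have := h.fc b hb
    rw [mem_EI]; tauto
  have hb1' := eB (gE b1 hb1)
  set a := k (Sum.inl ⟨b1, hb1'⟩) with ha
  have hS : ∀ b ∈ S, b ∈ {b | ∃ hb : b ∈ BI M I, k (Sum.inl ⟨b, hb⟩) = a} := by
    refine h.alt.single _ ⟨b1, hb1, hb1', rfl⟩ ?_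
    rintro b hb ⟨hb', hba⟩
    have hn := h.alt.maps b hb
    refine ⟨eB (gE _ hn), ?_⟩
    rw [hk _ (g (nx b)) _ (eV (gE _ hn)) (gE _ hn), ← hba,
      hk b (f b) hb' (eV (fE b hb)) (fE b hb)]
    congr 3
    exact (h.alt.face b hb).symm
  -- all blacks
  have hBall : ∀ b (hb : b ∈ BI M I), k (Sum.inl ⟨b, hb⟩) = a := by
    intro b hb
    by_contra hne
    have step : ∀ x y, Relation.EqvGen (fun x y => ∃ j, M.c j x = M.c j y) x y →
        ((∃ hb : x ∈ BI M I, k (Sum.inl ⟨x, hb⟩) ≠ a) ↔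
          (∃ hb : y ∈ BI M I, k (Sum.inl ⟨y, hb⟩) ≠ a)) := by
      have one : ∀ x j, (∃ hb : x ∈ BI M I, k (Sum.inl ⟨x, hb⟩) ≠ a) →
          ∀ n : ℕ, ∃ hb : (M.rho j ^ n) x ∈ BI M I, k (Sum.inl ⟨_, hb⟩) ≠ a := by
        intro x j hx n
        induction n with
        | zero => exact hx
        | succ n ih =>
          obtain ⟨hy, hya⟩ := ih
          set y := (M.rho j ^ n) x with hyd
          have hyS : y ∉ S := fun hyS => hya (hS y hyS).2
          have hall : ∀ i, M.e i y ∈ I := by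
            rw [mem_BI] at hy
            obtain ⟨i0, hi0⟩ := hy
            intro i
            exact (h.out3 hyS i i0).2 hi0
          rw [pow_succ', Equiv.Perm.mul_apply, ← hyd]
          have e1 : (M.rho j y, j) ∈ EI M I := by
            rw [mem_EI]; left
            rw [M.e_rho]; exact hall _
          have e2 : (y, j) ∈ EI M I := by
            rw [mem_EI]; left; exact hall _
          refine ⟨eB e1, ?_⟩
          rw [hk _ j _ (eV e1) e1]
          rw [hk _ j hy (eV e2) e2] at hya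
          convert hya using 4
          exact M.c_rho j y
      intro x y hxy
      have dir : ∀ x y, (∃ j, M.c j x = M.c j y) →
          (∃ hb : x ∈ BI M I, k (Sum.inl ⟨x, hb⟩) ≠ a) →
          (∃ hb : y ∈ BI M I, k (Sum.inl ⟨y, hb⟩) ≠ a) := by
        rintro x y ⟨j, hj⟩ hx
        obtain ⟨n, rfl⟩ := (M.same_iff j x y).1 hj
        exact one x j hx n
      induction hxy with
      | rel x y hxy =>
        exact ⟨dir x y hxy, dir y x ⟨hxy.choose, hxy.choose_spec.symm⟩⟩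
      | refl x => exact Iff.rfl
      | symm x y _ ih => exact ih.symm
      | trans x y z _ _ ih1 ih2 => exact ih1.trans ih2
    obtain ⟨hb2, hb3⟩ := (step b b1 (hM b b1)).1 ⟨hb, hne⟩
    exact hb3 rfl
  have hall : ∀ u, k u = a := by
    rintro (⟨b, hb⟩ | ⟨v, hv⟩)
    · exact hBall b hb
    · have hv' := hv
      rw [mem_VI] at hv'
      obtain ⟨b, j, rfl, hx⟩ := hv'
      have hx' : (b, j) ∈ EI M I := by rw [mem_EI]; exact hx
      rw [← hk b j (eB hx') hv hx', hBall]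
  intro u v
  rw [hall u, hall v]

/-- the rank inequality for one side -/
theorem Sides.ineq (h : Sides M f g S nx I) (hM : M.Conn) (hI : (Iᶜ).Nonempty) :
    I.card + ((BI M I).card + (VI M I).card) ≤ (EI M I).card + 1 := by
  have eB : ∀ x : {x // x ∈ EI M I}, x.1.1 ∈ BI M I := by
    rintro ⟨x, hx⟩
    rw [mem_EI] at hx
    rw [mem_BI]
    rcases hx with hx | hx <;> exact ⟨_, hx⟩
  have eV : ∀ x : {x // x ∈ EI M I}, M.c x.1.2 x.1.1 ∈ VI M I := by
    rintro ⟨x, hx⟩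
    rw [mem_EI] at hx
    rw [mem_VI]
    exact ⟨x.1, x.2, rfl, hx⟩
  obtain ⟨b1, hb1⟩ := h.alt.nonempty
  have hb1' : b1 ∈ BI M I := by
    have := h.gc b1 hb1
    rw [mem_BI]
    by_cases h1 : M.e (g b1 + 1) b1 ∈ I
    · exact ⟨_, h1⟩
    · exact ⟨g b1 + 2, by tauto⟩
  have : Nonempty ({b // b ∈ BI M I} ⊕ {v // v ∈ VI M I}) := ⟨Sum.inl ⟨b1, hb1'⟩⟩
  have key := rank_ineq (V := {b // b ∈ BI M I} ⊕ {v // v ∈ VI M I}) (E := {x // x ∈ EI M I})
    (I := {w // w ∈ I}) (fun x => Sum.inl ⟨x.1.1, eB x⟩)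
    (fun x => Sum.inr ⟨M.c x.1.2 x.1.1, eV x⟩)
    (fun k hk => h.conn hM k fun b j hb hv hx => hk ⟨(b, j), hx⟩) (D M I) (D_inj hM hI)
    (fun n k => D_div n k _ _ (fun x => ⟨eB x, rfl⟩) (fun x => ⟨eV x, rfl⟩))
  simpa using key

theorem sum3 {A : Type} [AddCommMonoid A] (F : Fin 3 → A) (h : Fin 3) :
    ∑ j, F j = F h + F (h + 1) + F (h + 2) := by
  rw [Fin.sum_univ_three]
  have e0 : (0 : Fin 3) + 1 = 1 := rfl
  have e1 : (0 : Fin 3) + 2 = 2 := rfl
  have e2 : (1 : Fin 3) + 1 = 2 := rfl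
  have e3 : (1 : Fin 3) + 2 = 0 := rfl
  have e4 : (2 : Fin 3) + 1 = 0 := rfl
  have e5 : (2 : Fin 3) + 2 = 1 := rfl
  fin_cases h
  · rfl
  · show F 0 + F 1 + F 2 = F 1 + F (1 + 1) + F (1 + 2)
    rw [e2, e3]; abel
  · show F 0 + F 1 + F 2 = F 2 + F (2 + 1) + F (2 + 2)
    rw [e4, e5]; abel

/-- the possible positions of a black -/
theorem Sides.local (h : Sides M f g S nx I) (b : B) :
    (b ∉ S ∧ ((∀ i, M.e i b ∈ I) ∨ (∀ i, M.e i b ∉ I))) ∨
    (b ∈ S ∧ ∃ t : Fin 3, (f b = t + 1 ∨ f b = t + 2) ∧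
      ((M.e t b ∉ I ∧ M.e (t + 1) b ∈ I ∧ M.e (t + 2) b ∈ I) ∨
        (M.e t b ∈ I ∧ M.e (t + 1) b ∉ I ∧ M.e (t + 2) b ∉ I))) := by
  by_cases hb : b ∈ S
  · right
    refine ⟨hb, ?_⟩
    obtain ⟨t, h1, h2⟩ := fthird (f b) (g b)
    have h3 := h.th b hb t h1 h2
    have h4 := h.fc b hb
    refine ⟨t, ?_⟩
    rcases fcase (f b) t with h5 | h5 | h5
    · exact absurd h5.symm h1
    · refine ⟨Or.inl h5, ?_⟩
      rw [h5, f11, f12] at h4
      tauto
    · refine ⟨Or.inr h5, ?_⟩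
      rw [h5, f21, f22] at h4
      tauto
  · left
    refine ⟨hb, ?_⟩
    by_cases h0 : M.e 0 b ∈ I
    · left; intro i; exact (h.out3 hb i 0).2 h0
    · right; intro i hi; exact h0 ((h.out3 hb 0 i).2 hi)

theorem Sides.pt1 (h : Sides M f g S nx I) (b : B) :
    (if b ∈ BI M I then 1 else 0) + (if b ∈ BI M Iᶜ then 1 else 0) =
      (1 + (if b ∈ S then 1 else 0) : ℤ) := by
  rcases h.local b with ⟨hS, h1 | h1⟩ | ⟨hS, t, -, ⟨h1, h2, h3⟩ | ⟨h1, h2, h3⟩⟩
  · have a1 : b ∈ BI M I := by rw [mem_BI]; exact ⟨0, h1 0⟩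
    have a2 : b ∉ BI M Iᶜ := by
      rw [mem_BI]; rintro ⟨j, hj⟩; exact (mem_compl.1 hj) (h1 j)
    simp [a1, a2, hS]
  · have a1 : b ∉ BI M I := by rw [mem_BI]; rintro ⟨j, hj⟩; exact h1 j hj
    have a2 : b ∈ BI M Iᶜ := by
      rw [mem_BI]; exact ⟨0, mem_compl.2 (h1 0)⟩
    simp [a1, a2, hS]
  · have a1 : b ∈ BI M I := by rw [mem_BI]; exact ⟨_, h2⟩
    have a2 : b ∈ BI M Iᶜ := by
      rw [mem_BI]; exact ⟨_, mem_compl.2 h1⟩
    simp [a1, a2, hS]
  · have a1 : b ∈ BI M I := by rw [mem_BI]; exact ⟨_, h1⟩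
    have a2 : b ∈ BI M Iᶜ := by
      rw [mem_BI]; exact ⟨_, mem_compl.2 h2⟩
    simp [a1, a2, hS]

theorem Sides.pt2 (h : Sides M f g S nx I) (b : B) :
    (∑ j : Fin 3, (if (b, j) ∈ EI M I then 1 else 0)) +
      (∑ j : Fin 3, (if (b, j) ∈ EI M Iᶜ then 1 else 0)) =
      (3 + 2 * (if b ∈ S then 1 else 0) : ℤ) := by
  rcases h.local b with ⟨hS, h1 | h1⟩ | ⟨hS, t, -, ⟨h1, h2, h3⟩ | ⟨h1, h2, h3⟩⟩
  · simp [mem_EI, h1, hS]
  · simp [mem_EI, h1, hS]
  · rw [sum3 _ t, sum3 _ t]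
    simp only [mem_EI, mem_compl, f11, f12, f21, f22]
    simp [h1, h2, h3, hS]
  · rw [sum3 _ t, sum3 _ t]
    simp only [mem_EI, mem_compl, f11, f12, f21, f22]
    simp [h1, h2, h3, hS]

theorem Sides.pt3 (h : Sides M f g S nx I) (b : B) :
    (∑ j : Fin 3, (if M.e j b ∈ I then 1 else 0)) + 6 * (if b ∈ BI M I then 1 else 0) -
      3 * (∑ j : Fin 3, (if (b, j) ∈ EI M I then 1 else 0)) =
      ((if b ∈ S then 1 else 0) - 2 * (if b ∈ S ∧ M.e (f b) b ∈ I then 1 else 0) : ℤ) := by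
  rcases h.local b with ⟨hS, h1 | h1⟩ | ⟨hS, t, hf, ⟨h1, h2, h3⟩ | ⟨h1, h2, h3⟩⟩
  · have a1 : b ∈ BI M I := by rw [mem_BI]; exact ⟨0, h1 0⟩
    simp [mem_EI, h1, hS, a1]
  · have a1 : b ∉ BI M I := by rw [mem_BI]; rintro ⟨j, hj⟩; exact h1 j hj
    simp [mem_EI, h1, hS, a1]
  · have a1 : b ∈ BI M I := by rw [mem_BI]; exact ⟨_, h2⟩
    have a2 : M.e (f b) b ∈ I := by rcases hf with hf | hf <;> rw [hf] <;> assumption
    rw [sum3 _ t, sum3 _ t]
    simp only [mem_EI, f11, f12, f21, f22]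
    simp [h1, h2, h3, hS, a1, a2]
  · have a1 : b ∈ BI M I := by rw [mem_BI]; exact ⟨_, h1⟩
    have a2 : M.e (f b) b ∉ I := by rcases hf with hf | hf <;> rw [hf] <;> assumption
    rw [sum3 _ t, sum3 _ t]
    simp only [mem_EI, f11, f12, f21, f22]
    simp [h1, h2, h3, hS, a1, a2]

theorem card_eq_sum_ite {A : Type} [Fintype A] [DecidableEq A] (s : Finset A) :
    (s.card : ℤ) = ∑ a, if a ∈ s then 1 else 0 := by
  simp

theorem card_EI : ((EI M I).card : ℤ) = ∑ b, ∑ j : Fin 3, if (b, j) ∈ EI M I then 1 else 0 := by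
  rw [card_eq_sum_ite, Fintype.sum_prod_type]

theorem three_card : (3 * I.card : ℤ) = ∑ b, ∑ j : Fin 3, if M.e j b ∈ I then 1 else 0 := by
  rw [Finset.sum_comm]
  have : ∀ j : Fin 3, (∑ b, if M.e j b ∈ I then (1 : ℤ) else 0) = I.card := by
    intro j
    rw [Equiv.sum_comp (M.e j) (fun w => if w ∈ I then (1 : ℤ) else 0)]
    simp
  rw [Finset.sum_congr rfl fun j _ => this j]
  simp

theorem Sides.card_V (h : Sides M f g S nx I) :
    (VI M I).card + (VI M Iᶜ).card = Fintype.card V + S.card := by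
  rw [← Finset.card_union_add_card_inter]
  have h1 : VI M I ∪ VI M Iᶜ = univ := by
    rw [eq_univ_iff_forall]
    intro v
    obtain ⟨j, b, hb⟩ := M.surj v
    rw [mem_union, mem_VI, mem_VI]
    by_cases hx : M.e (j + 1) b ∈ I
    · exact Or.inl ⟨b, j, hb, Or.inl hx⟩
    · exact Or.inr ⟨b, j, hb, Or.inl (mem_compl.2 hx)⟩
  have h2 : VI M I ∩ VI M Iᶜ = S.image (fun b => M.c (g b) b) := by
    ext v
    rw [mem_inter, mem_image]
    constructor
    · rintro ⟨hv1, hv2⟩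
      by_contra hne
      have hoff : OffC M g S v := fun b hb hbv => hne ⟨b, hb, hbv⟩
      rw [mem_VI] at hv1 hv2
      obtain ⟨b, j, hb, hx⟩ := hv1
      obtain ⟨b', j', hb', hx'⟩ := hv2
      have hj := M.cls _ _ _ _ (hb.trans hb'.symm)
      subst hj
      have a1 := h.corner hoff hb
      have a2 := h.corner hoff hb'
      have a3 := h.around hoff hb hb'
      simp only [mem_compl] at hx'
      tauto
    · rintro ⟨b, hb, rfl⟩
      have := h.gc b hb
      rw [mem_VI, mem_VI]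
      refine ⟨⟨b, g b, rfl, by tauto⟩, ⟨b, g b, rfl, ?_⟩⟩
      simp only [mem_compl]; tauto
  rw [h1, h2, card_univ, card_image_of_injOn]
  intro b hb b' hb' hbb
  exact h.alt.inj b hb b' hb' hbb

theorem Sides.card_VI (h : Sides M f g S nx I) {b0 : B} (hb0 : b0 ∉ S) (hg : M.IsMatch b0 g)
    (hI0 : ∀ j, M.e j b0 ∉ I) : (VI M I).card = (BI M I).card := by
  have hb0' : ∀ b ∈ BI M I, b ≠ b0 := by
    rintro b hb rfl
    rw [mem_BI] at hb
    obtain ⟨j, hj⟩ := hb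
    exact hI0 j hj
  have h1 : VI M I = (BI M I).image (fun b => M.c (g b) b) := by
    ext v
    rw [mem_image]
    constructor
    · intro hv
      rw [mem_VI] at hv
      obtain ⟨b, j, hb, hx⟩ := hv
      by_cases hoff : OffC M g S v
      · have hv0 : ∀ i, M.c i b0 ≠ v := by
          intro i hi
          have hj := M.cls _ _ _ _ (hb.trans hi.symm)
          subst hj
          have a1 := h.corner hoff hb
          have a2 := h.around hoff hb hi
          have a3 := hI0 (j + 1)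
          tauto
        obtain ⟨b', hb', hv'⟩ := hg.surj v hv0
        refine ⟨b', ?_, hv'⟩
        have hj := M.cls _ _ _ _ (hb.trans hv'.symm)
        subst hj
        have a1 := h.corner hoff hb
        have a2 := h.around hoff hb hv'
        rw [mem_BI]
        exact ⟨g b' + 1, by tauto⟩
      · unfold OffC at hoff
        push Not at hoff
        obtain ⟨b', hb', hv'⟩ := hoff
        refine ⟨b', ?_, hv'⟩
        have := h.gc b' hb'
        rw [mem_BI]
        by_cases h1 : M.e (g b' + 1) b' ∈ I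
        · exact ⟨_, h1⟩
        · exact ⟨g b' + 2, by tauto⟩
    · rintro ⟨b, hb, rfl⟩
      rw [mem_VI]
      refine ⟨b, g b, rfl, ?_⟩
      by_cases hS : b ∈ S
      · have := h.gc b hS
        tauto
      · rw [mem_BI] at hb
        obtain ⟨j, hj⟩ := hb
        exact Or.inl ((h.out3 hS _ j).2 hj)
  rw [h1, card_image_of_injOn]
  intro b hb b' hb' hbb
  exact hg.inj b b' (hb0' b hb) (hb0' b' hb') hbb

theorem Sides.count (h : Sides M f g S nx I) (hM : M.Sph) {b0 : B} (hb0 : b0 ∉ S)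
    (hg : M.IsMatch b0 g) (hI : I.Nonempty) (hI0 : ∀ j, M.e j b0 ∉ I) :
    S.card = 2 * (S.filter fun b => M.e (f b) b ∈ I).card + 3 := by
  have hIc : (Iᶜ).Nonempty := ⟨M.e 0 b0, mem_compl.2 (hI0 0)⟩
  have i1 := h.ineq hM.conn hIc
  have i2 := h.compl.ineq hM.conn (by rw [compl_compl]; exact hI)
  have c3 := h.card_V
  have c4 := h.card_VI hb0 hg hI0
  have c5 : I.card + (Iᶜ).card = Fintype.card B := by
    rw [Finset.card_add_card_compl, Fintype.card_congr (M.e 0)]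
  have c6 := hM.card
  have c1 : ((BI M I).card + (BI M Iᶜ).card : ℤ) = Fintype.card B + S.card := by
    rw [card_eq_sum_ite, card_eq_sum_ite, ← Finset.sum_add_distrib,
      Finset.sum_congr rfl fun b _ => h.pt1 b, Finset.sum_add_distrib, ← card_eq_sum_ite]
    simp
  have c2 : ((EI M I).card + (EI M Iᶜ).card : ℤ) = 3 * Fintype.card B + 2 * S.card := by
    rw [card_EI, card_EI, ← Finset.sum_add_distrib,
      Finset.sum_congr rfl fun b _ => h.pt2 b, Finset.sum_add_distrib, ← Finset.mul_sum,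
      ← card_eq_sum_ite]
    simp; ring
  have d : (3 * I.card + 6 * (BI M I).card - 3 * (EI M I).card : ℤ) =
      S.card - 2 * (S.filter fun b => M.e (f b) b ∈ I).card := by
    rw [three_card (M := M), card_EI, card_eq_sum_ite (BI M I), Finset.mul_sum, Finset.mul_sum,
      ← Finset.sum_add_distrib, ← Finset.sum_sub_distrib,
      Finset.sum_congr rfl fun b _ => h.pt3 b, Finset.sum_sub_distrib, ← Finset.mul_sum,
      ← card_eq_sum_ite, card_eq_sum_ite (S.filter _)]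
    congr 2
    refine Finset.sum_congr rfl fun b _ => ?_
    simp only [mem_filter]
  omega

end Vale.Agent.P039.Bn.L2

namespace Vale.Agent.P039.Bn.PMap

open Finset Vale.Agent.P039.Bn.L2

variable {B W V : Type} (M : PMap B W V) [Fintype B] [Fintype W] [Fintype V]
  [DecidableEq B] [DecidableEq W] [DecidableEq V]

theorem sides_of_eq {M : PMap B W V} {f g : B → Fin 3} {S : Finset B} {nx : B → B}
    (h : M.IsAlt f g S nx) {s : ℚ} {I : Finset W} (hs : s = 1 ∨ s = -1)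
    (hx : ∀ b j, cyc f g S b j =
        s * ((if M.e (j + 1) b ∈ I then 1 else 0) - (if M.e (j + 2) b ∈ I then 1 else 0))) :
    Sides M f g S nx I := by
  have h0 : ∀ b j, cyc f g S b j = 0 → (M.e (j + 1) b ∈ I ↔ M.e (j + 2) b ∈ I) := by
    intro b j hb
    rw [hx] at hb
    by_cases h1 : M.e (j + 1) b ∈ I <;> by_cases h2 : M.e (j + 2) b ∈ I <;>
      rcases hs with rfl | rfl <;> simp_all
  have h1 : ∀ b j, cyc f g S b j ≠ 0 → ¬ (M.e (j + 1) b ∈ I ↔ M.e (j + 2) b ∈ I) := by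
    intro b j hb hiff
    apply hb
    rw [hx]
    by_cases h1 : M.e (j + 1) b ∈ I
    · have h2 := hiff.1 h1
      simp [h1, h2]
    · have h2 : M.e (j + 2) b ∉ I := fun h => h1 (hiff.2 h)
      simp [h1, h2]
  refine ⟨h, ?_, ?_, ?_, ?_⟩
  · intro b hb j
    apply h0
    simp [cyc, hb]
  · intro b hb
    apply h1
    simp [cyc, hb, h.ne b hb]
  · intro b hb
    apply h1
    simp [cyc, hb, (h.ne b hb).symm]
  · intro b hb j hj1 hj2
    apply h0
    simp [cyc, hb, hj1, hj2]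

theorem t2 : M.T2 := by
  intro hM f g S nx b0 h hb0 hg s I hs hI hI0 hx
  exact (sides_of_eq h hs hx).count hM hb0 hg hI hI0

end Vale.Agent.P039.Bn.PMap
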