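import Mathlib
import Vale.Agent.P039.Bn.L2.T2
import Vale.Agent.P039.Bn.L2.T1

/-! The number of whites inside an alternating cycle. -/

set_option linter.unusedSectionVars false

namespace Vale.Agent.P039.Bn.L2

open Finset PMap

variable {B W V : Type}
variable {M : PMap B W V} {f g : B → Fin 3} {S : Finset B} {nx : B → B} {I : Finset W}
variable [Fintype B] [Fintype W] [Fintype V] [DecidableEq B] [DecidableEq W] [DecidableEq V]

theorem Sides.pt4 (h : Sides M f g S nx I) (b : B) :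
    (∑ j : Fin 3, (if M.e j b ∈ I then 1 else 0)) =
      (3 * (if b ∉ S ∧ M.e 0 b ∈ I then 1 else 0) + (if b ∈ S then 1 else 0) +
        (if b ∈ S ∧ M.e (f b) b ∈ I then 1 else 0) : ℤ) := by
  rcases h.local b with ⟨hS, h1 | h1⟩ | ⟨hS, t, hf, ⟨h1, h2, h3⟩ | ⟨h1, h2, h3⟩⟩
  · simp [h1, hS]
  · simp [h1, hS]
  · have a2 : M.e (f b) b ∈ I := by rcases hf with hf | hf <;> rw [hf] <;> assumption
    rw [sum3 _ t]
    simp [h1, h2, h3, hS, a2]
  · have a2 : M.e (f b) b ∉ I := by rcases hf with hf | hf <;> rw [hf] <;> assumption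
    rw [sum3 _ t]
    simp [h1, h2, h3, hS, a2]

/-- `3 |I| = 3 β + k + in` -/
theorem Sides.three (h : Sides M f g S nx I) :
    3 * I.card = 3 * (univ.filter fun b => b ∉ S ∧ M.e 0 b ∈ I).card + S.card +
      (S.filter fun b => M.e (f b) b ∈ I).card := by
  have : (3 * I.card : ℤ) = 3 * (univ.filter fun b => b ∉ S ∧ M.e 0 b ∈ I).card + S.card +
      (S.filter fun b => M.e (f b) b ∈ I).card := by
    have e1 : ((univ.filter fun b => b ∉ S ∧ M.e 0 b ∈ I).card : ℤ) =
        ∑ b, if b ∉ S ∧ M.e 0 b ∈ I then 1 else 0 := by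
      rw [card_eq_sum_ite]
      exact Finset.sum_congr rfl fun b _ => by simp only [mem_filter, mem_univ, true_and]
    have e3 : ((S.filter fun b => M.e (f b) b ∈ I).card : ℤ) =
        ∑ b, if b ∈ S ∧ M.e (f b) b ∈ I then 1 else 0 := by
      rw [card_eq_sum_ite]
      exact Finset.sum_congr rfl fun b _ => by simp only [mem_filter]
    rw [three_card (M := M), Finset.sum_congr rfl fun b _ => h.pt4 b, Finset.sum_add_distrib,
      Finset.sum_add_distrib, ← Finset.mul_sum, ← card_eq_sum_ite, e1, e3]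
  exact_mod_cast this

/-- `2 |I| + 1 = 2 β + k`, `β` = number of blacks strictly inside -/
theorem Sides.count2 (h : Sides M f g S nx I) (hM : M.Sph) {b0 : B} (hb0 : b0 ∉ S)
    (hg : M.IsMatch b0 g) (hI : I.Nonempty) (hI0 : ∀ j, M.e j b0 ∉ I) :
    2 * I.card + 1 = 2 * (univ.filter fun b => b ∉ S ∧ M.e 0 b ∈ I).card + S.card := by
  have h1 := h.count hM hb0 hg hI hI0
  have h2 := h.three
  omega

end Vale.Agent.P039.Bn.L2

namespace Vale.Agent.P039.Bn.PMap

open Finset Vale.Agent.P039.Bn.L2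

variable {B W V : Type} (M : PMap B W V) [Fintype B] [Fintype W] [Fintype V]
  [DecidableEq B] [DecidableEq W] [DecidableEq V]

/-- everything about an alternating cycle at once -/
theorem sides_exist (hM : M.Sph) {f g : B → Fin 3} {S : Finset B} {nx : B → B} {b0 : B}
    (h : M.IsAlt f g S nx) (hb0 : b0 ∉ S) (hg : M.IsMatch b0 g) :
    ∃ I : Finset W, Sides M f g S nx I ∧ I.Nonempty ∧ (∀ j, M.e j b0 ∉ I) ∧
      S.card = 2 * (S.filter fun b => M.e (f b) b ∈ I).card + 3 ∧
      2 * I.card + 1 = 2 * (univ.filter fun b => b ∉ S ∧ M.e 0 b ∈ I).card + S.card := by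
  obtain ⟨s, I, hs, hI, hI0, hx⟩ := M.t1 hM f g S nx b0 h hb0
  have hS := sides_of_eq h hs hx
  exact ⟨I, hS, hI, hI0, hS.count hM hb0 hg hI hI0, hS.count2 hM hb0 hg hI hI0⟩

end Vale.Agent.P039.Bn.PMap
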