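import Vale.Agent.P039.Bn.L2.Defs
import Vale.Agent.P039.Bar.H538.Exact

/-! Row L2 of P039-B: T0, exactness of the complex of the sphere. -/

namespace Vale.Agent.P039.Bn

open Vale.Agent.P039.Bar

namespace PMap

variable {B W V : Type} (M : PMap B W V)

theorem closed_of_conn (hc : M.Conn) (P : B → Prop) (h0 : ∃ b, P b)
    (h : ∀ b b' i j, M.e i b = M.e j b' → P b → P b') (b : B) : P b := by
  obtain ⟨b₀, hb₀⟩ := h0
  have key : ∀ x y, Relation.EqvGen (fun x y => ∃ j, M.c j x = M.c j y) x y → (P x ↔ P y) := by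
    intro x y hxy
    induction hxy with
    | rel x y hxy =>
      obtain ⟨j, hj⟩ := hxy
      have := M.exact j x y hj
      clear hj
      induction this with
      | rel x y hxy => exact ⟨h _ _ _ _ hxy.symm, h _ _ _ _ hxy⟩
      | refl x => exact Iff.rfl
      | symm x y _ ih => exact ih.symm
      | trans x y z _ _ ih1 ih2 => exact ih1.trans ih2
    | refl x => exact Iff.rfl
    | symm x y _ ih => exact ih.symm
    | trans x y z _ _ ih1 ih2 => exact ih1.trans ih2
  exact (key _ _ (hc b₀ b)).1 hb₀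

/-- the data of `Bar.H538.Exact` of a triangulation of the sphere -/
def toWD [Fintype B] [Fintype W] [Fintype V] (hM : M.Sph) : H538.WD B W V where
  e := M.e
  F b j := M.c j b
  step j b b' h := M.step j b b' h
  surj v := by obtain ⟨j, b, h⟩ := M.surj v; exact ⟨b, j, h⟩
  conn P h0 h := M.closed_of_conn hM.conn P h0 h
  euler := hM.card
  ne := by
    have : 0 < Fintype.card V := by rw [hM.card]; omega
    obtain ⟨v⟩ := Fintype.card_pos_iff.1 this
    obtain ⟨j, b, h⟩ := M.surj v
    exact ⟨b⟩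

/-- exactness over any field -/
theorem exists_bd {K : Type*} [Field K] [Fintype B] [Fintype V] [DecidableEq V] (hM : M.Sph)
    (x : B → Fin 3 → K) (h1 : ∀ b, ∑ j, x b j = 0)
    (h2 : ∀ v, (∑ b, ∑ j, if M.c j b = v then x b j else 0) = 0) :
    ∃ n : W → K, ∀ b j, x b j = n (M.e (j + 1) b) - n (M.e (j + 2) b) := by
  classical
  let _ : Fintype W := Fintype.ofEquiv B (M.e 0)
  obtain ⟨n, hn⟩ := (M.toWD hM).exists_of_cycle (fun y => x y.1 y.2) h1 (fun v => by
    rw [Finset.sum_comm]
    exact h2 v)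
  exact ⟨n, hn⟩

theorem t0 [Fintype B] [Fintype V] [DecidableEq V] : M.T0 := by
  intro hM x hx
  exact M.exists_bd hM x hx.1 hx.2

end PMap

end Vale.Agent.P039.Bn
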